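import Vale.Agent.Lib.P172.Main

namespace Vale.Agent.Results.P172.FiniteKernelAndQuotient

open Vale.Agent.Lib.P172

/-- Two invariance properties of the classes of CAT(0) groups and CAT(-1) groups, in one
statement.

1. If `φ : G → H` is a group homomorphism with finite kernel and finite-index image and `H` is a
CAT(0) group (resp. a CAT(-1) group), then so is `G`.

2. For a finite normal subgroup `N` of a group `G`: `G` is a CAT(0) group if and only if `G ⧸ N`
is, and `G` is a CAT(-1) group if and only if `G ⧸ N` is. -/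
theorem result :
    (∀ {G H : Type*} [Group G] [Group H] (φ : G →* H),
      (φ.ker : Set G).Finite → φ.range.FiniteIndex →
        (IsCAT0Group H → IsCAT0Group G) ∧ (IsCATNegOneGroup H → IsCATNegOneGroup G)) ∧
    (∀ {G : Type*} [Group G] (N : Subgroup G) [N.Normal], (N : Set G).Finite →
      (IsCAT0Group G ↔ IsCAT0Group (G ⧸ N)) ∧
        (IsCATNegOneGroup G ↔ IsCATNegOneGroup (G ⧸ N))) := by
  refine ⟨?_, ?_⟩
  · intro G H _ _ φ hker hidx
    exact ⟨isCAT0Group_of_hom φ hker hidx, isCATNegOneGroup_of_hom φ hker hidx⟩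
  · intro G _ N _ hN
    exact ⟨⟨isCAT0Group_quotient N hN,
        isCAT0Group_of_hom (QuotientGroup.mk' N) (ker_mk'_finite N hN) (range_mk'_finiteIndex N)⟩,
      ⟨isCATNegOneGroup_quotient N hN,
        isCATNegOneGroup_of_hom (QuotientGroup.mk' N) (ker_mk'_finite N hN)
          (range_mk'_finiteIndex N)⟩⟩

end Vale.Agent.Results.P172.FiniteKernelAndQuotient
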