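import Vale.Agent.Lib.P172.CompHom

namespace Vale.Agent.Results.P172.FiniteKernelHom

open Vale.Agent.Lib.P172

/-- If `φ : G → H` is a group homomorphism with finite kernel and finite-index image and `H` is a
CAT(0) group (resp. a CAT(-1) group), then so is `G`. -/
theorem result {G H : Type*} [Group G] [Group H] (φ : G →* H)
    (hker : (φ.ker : Set G).Finite) (hidx : φ.range.FiniteIndex) :
    (IsCAT0Group H → IsCAT0Group G) ∧ (IsCATNegOneGroup H → IsCATNegOneGroup G) := by
  constructor
  · rintro ⟨X, iM, iA, hne, hproper, hcat, hgeo⟩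
    exact ⟨X, iM, MulAction.compHom X φ, hne, hproper, hcat,
      isGeometricAction_compHom φ hker hidx hgeo⟩
  · rintro ⟨X, iM, iA, hne, hproper, hcat, hgeo⟩
    exact ⟨X, iM, MulAction.compHom X φ, hne, hproper, hcat,
      isGeometricAction_compHom φ hker hidx hgeo⟩

end Vale.Agent.Results.P172.FiniteKernelHom
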