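import Vale.Agent.Lib.P172.Main

namespace Vale.Agent.Results.P172.FiniteNormalQuotient

open Vale.Agent.Lib.P172

/-- For a finite normal subgroup `N` of a group `G`: `G` is a CAT(0) group if and only if `G ⧸ N`
is, and `G` is a CAT(-1) group if and only if `G ⧸ N` is. -/
theorem result {G : Type*} [Group G] (N : Subgroup G) [N.Normal] (hN : (N : Set G).Finite) :
    (IsCAT0Group G ↔ IsCAT0Group (G ⧸ N)) ∧
      (IsCATNegOneGroup G ↔ IsCATNegOneGroup (G ⧸ N)) :=
  ⟨⟨isCAT0Group_quotient N hN,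
      isCAT0Group_of_hom (QuotientGroup.mk' N) (ker_mk'_finite N hN) (range_mk'_finiteIndex N)⟩,
    ⟨isCATNegOneGroup_quotient N hN,
      isCATNegOneGroup_of_hom (QuotientGroup.mk' N) (ker_mk'_finite N hN)
        (range_mk'_finiteIndex N)⟩⟩

end Vale.Agent.Results.P172.FiniteNormalQuotient
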